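import Mathlib.Logic.Relation
import Mathlib.Data.Nat.Basic

/-! Pure type systems with de Bruijn indices: the statement of the
Barendregt-Geuvers-Klop conjecture. -/

namespace Vale.Agent.P340

universe u

/-- A pure type specification over the set of sorts `S`. -/
structure PTS (S : Type u) where
  ax : S → S → Prop
  rule : S → S → S → Prop

/-- Expressions, with de Bruijn indices for variables. -/
inductive Expr (S : Type u) : Type u
  | var : ℕ → Expr S
  | srt : S → Expr S
  | app : Expr S → Expr S → Expr S
  | lam : Expr S → Expr S → Expr S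
  | pi : Expr S → Expr S → Expr S

namespace Expr

variable {S : Type u}

/-- Lifting a renaming under a binder. -/
def upr (ξ : ℕ → ℕ) : ℕ → ℕ
  | 0 => 0
  | n + 1 => ξ n + 1

/-- Renaming of the free variables. -/
def ren (ξ : ℕ → ℕ) : Expr S → Expr S
  | var n => var (ξ n)
  | srt s => srt s
  | app M N => app (ren ξ M) (ren ξ N)
  | lam A M => lam (ren ξ A) (ren (upr ξ) M)
  | pi A B => pi (ren ξ A) (ren (upr ξ) B)

/-- Shifting all free variables by one (weakening by a fresh variable). -/
def lift (M : Expr S) : Expr S := ren (fun n => n + 1) M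

/-- Lifting a substitution under a binder. -/
def ups (σ : ℕ → Expr S) : ℕ → Expr S
  | 0 => var 0
  | n + 1 => lift (σ n)

/-- Capture-avoiding simultaneous substitution. -/
def subst (σ : ℕ → Expr S) : Expr S → Expr S
  | var n => σ n
  | srt s => srt s
  | app M N => app (subst σ M) (subst σ N)
  | lam A M => lam (subst σ A) (subst (ups σ) M)
  | pi A B => pi (subst σ A) (subst (ups σ) B)

/-- The substitution sending variable `0` to `N` and variable `n + 1` to variable `n`. -/
def single (N : Expr S) : ℕ → Expr S
  | 0 => N
  | n + 1 => var n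

/-- `inst M N` is `M[x := N]` for the variable `x` bound just outside `M`. -/
def inst (M N : Expr S) : Expr S := subst (single N) M

/-- One step of beta reduction, anywhere in the expression, annotations included. -/
inductive Step : Expr S → Expr S → Prop
  | beta (A M N : Expr S) : Step (app (lam A M) N) (inst M N)
  | appL {M M' : Expr S} (N : Expr S) : Step M M' → Step (app M N) (app M' N)
  | appR (M : Expr S) {N N' : Expr S} : Step N N' → Step (app M N) (app M N')
  | lamL {A A' : Expr S} (M : Expr S) : Step A A' → Step (lam A M) (lam A' M)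
  | lamR (A : Expr S) {M M' : Expr S} : Step M M' → Step (lam A M) (lam A M')
  | piL {A A' : Expr S} (B : Expr S) : Step A A' → Step (pi A B) (pi A' B)
  | piR (A : Expr S) {B B' : Expr S} : Step B B' → Step (pi A B) (pi A B')

/-- Beta conversion. -/
def Conv (M N : Expr S) : Prop := Relation.EqvGen Step M N

/-- Beta normal forms. -/
def Normal (M : Expr S) : Prop := ∀ N, ¬ Step M N

end Expr

open Expr

variable {S : Type u}

/-- The typing relation; the head of the context list is the last declared variable. -/
inductive Typ (P : PTS S) : List (Expr S) → Expr S → Expr S → Prop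
  | ax {s t : S} : P.ax s t → Typ P [] (srt s) (srt t)
  | var {Γ : List (Expr S)} {A : Expr S} {s : S} :
      Typ P Γ A (srt s) → Typ P (A :: Γ) (var 0) (lift A)
  | weak {Γ : List (Expr S)} {M B A : Expr S} {s : S} :
      Typ P Γ M B → Typ P Γ A (srt s) → Typ P (A :: Γ) (lift M) (lift B)
  | pi {Γ : List (Expr S)} {A B : Expr S} {s₁ s₂ s₃ : S} :
      Typ P Γ A (srt s₁) → Typ P (A :: Γ) B (srt s₂) → P.rule s₁ s₂ s₃ →
      Typ P Γ (pi A B) (srt s₃)
  | lam {Γ : List (Expr S)} {A M B : Expr S} {s : S} :
      Typ P (A :: Γ) M B → Typ P Γ (pi A B) (srt s) → Typ P Γ (lam A M) (pi A B)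
  | app {Γ : List (Expr S)} {M N A B : Expr S} :
      Typ P Γ M (pi A B) → Typ P Γ N A → Typ P Γ (app M N) (inst B N)
  | conv {Γ : List (Expr S)} {M A B : Expr S} {s : S} :
      Typ P Γ M A → Typ P Γ B (srt s) → Conv A B → Typ P Γ M B

/-- Legal expressions: subjects or types of derivable judgments. -/
def Legal (P : PTS S) (M : Expr S) : Prop :=
  ∃ (Γ : List (Expr S)) (A : Expr S), Typ P Γ M A ∨ Typ P Γ A M

/-- Every legal expression reduces to a normal form. -/
def WeaklyNormalizing (P : PTS S) : Prop :=
  ∀ M, Legal P M → ∃ N, Relation.ReflTransGen Step M N ∧ Normal N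

/-- No legal expression starts an infinite reduction sequence. -/
def StronglyNormalizing (P : PTS S) : Prop :=
  ∀ M, Legal P M → ¬ ∃ f : ℕ → Expr S, f 0 = M ∧ ∀ n, Step (f n) (f (n + 1))

end Vale.Agent.P340
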